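import Vale.Agent.P043.T2.Defs

/-! # P043, row FIN: the tables of the finite gadget and the finite checks -/

namespace Vale.Agent.P043.T2.H664

open Finset

/-- `Z/4 x Z/9`. -/
abbrev PP : Type := ZMod 4 × ZMod 9
/-- `Z/25 x Z/49`. -/
abbrev QQ : Type := ZMod 25 × ZMod 49

/-- octal digit -/
def dg (N i : ℕ) : ℕ := N / 8 ^ i % 8

/-- cells of class 1 -/
def isC1 (a b : ℕ) : Bool := Nat.beq a b

/-- kind of the layer `(k,l)` -/
def tb (k l : ℕ) : ℕ :=
  12493199279679226192921651885640299995222411940642248 / 32 ^ (l * 5 + k) % 32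

/-- D-family of class 0 -/
def d0 (kd f i j : ℕ) : Bool :=
  if kd < 14 then
    Nat.beq (i % 2) (kd / 7) &&
      Nat.beq (j % 3) (if 2 * f + i / 2 < kd % 7 then 1 - kd / 7 else 2)
  else if kd = 15 then Nat.beq (i % 2) 1 && Nat.beq j 0
  else if kd = 16 then Nat.beq (i % 2) 0 && Nat.beq j 1
  else false

/-- D-family of class 1 -/
def d1 (kd f i j : ℕ) : Bool :=
  if kd = 14 then Nat.beq (i % 2) f && Nat.beq (j % 3) f
  else if kd = 15 then Nat.beq (i % 2) 0 && (Nat.beq j 3 || Nat.beq j 6)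
  else if kd = 16 then Nat.beq (i % 2) 1 && (Nat.beq j 4 || Nat.beq j 7)
  else false

/-- class 0 columns -/
def x2 (kd j : ℕ) : Bool :=
  if kd < 14 then true
  else if kd = 15 then Nat.ble j 2
  else if kd = 16 then Nat.ble 1 j && Nat.ble j 3
  else false

/-- the table `kb` of class 0 -/
def kb0 (a f : ℕ) : ℕ :=
  if a = 0 then dg 1122880 f else dg 1193680 f
/-- the table `lb` of class 0 -/
def lb0 (a b i : ℕ) : ℕ :=
  if a = 0 then
    (if b = 1 then dg 20996524114545784060210807793938 i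
      else dg 23180247580606766407350998194468 i)
  else
    (if b = 0 then dg 34022659818418190635909490161224 i
      else dg 34769314467343695373342907596800 i)
/-- the table `lb` of class 1 -/
def lb1 (f : ℕ) : ℕ := dg 22152 f
/-- the table `kb` of class 1 -/
def kb1 (a i : ℕ) : ℕ :=
  if a = 0 then dg 23178476369360224702227641082953 i
  else dg 17362288662141519134022960302153 i

/-- B-family of class 0 -/
def b0 (a b f s k l : ℕ) : Bool :=
  !(isC1 a b) && (Nat.beq k (kb0 a f) && Nat.beq l (lb0 a b (5 * f + s)))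
/-- B-family of class 1 -/
def b1 (a b f s k l : ℕ) : Bool :=
  isC1 a b && (Nat.beq l (lb1 f) && Nat.beq k (kb1 a (7 * f + s)))

/-- number of points, class 0 -/
def n0 (kd a b : ℕ) : ℕ :=
  if kd < 14 then
    (if a = kd / 7 then (if b = 2 then 6 - kd % 7 else if b = 1 - kd / 7 then kd % 7 else 0) else 0)
  else if kd = 15 then (if a = 1 ∧ b = 0 then 2 else 0)
  else if kd = 16 then (if a = 0 ∧ b = 1 then 2 else 0)
  else 0
/-- number of points, class 1 -/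
def n1 (kd a b : ℕ) : ℕ :=
  if kd = 14 then (if a = b then 3 else 0)
  else if kd = 15 then (if a = 0 ∧ b = 0 then 4 else 0)
  else if kd = 16 then (if a = 1 ∧ b = 1 then 4 else 0)
  else 0

theorem tb_lt : ∀ k : Fin 5, ∀ l : Fin 7, tb k l < 17 := by decide +kernel

set_option maxRecDepth 100000 in
theorem d0_one : ∀ kd : Fin 17, ∀ f : Fin 3, ∀ i : ZMod 4, ∀ j : ZMod 9, x2 kd j.val = true →
    ∃ w : Fin 2 × Fin 3, d0 kd f (i - ((w.1 : ℕ) : ZMod 4)).val (j - ((w.2 : ℕ) : ZMod 9)).val = true ∧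
      ∀ w' : Fin 2 × Fin 3,
        d0 kd f (i - ((w'.1 : ℕ) : ZMod 4)).val (j - ((w'.2 : ℕ) : ZMod 9)).val = true → w' = w := by
  decide +kernel

theorem d0_none : ∀ kd : Fin 17, ∀ f : Fin 3, ∀ i : ZMod 4, ∀ j : ZMod 9, x2 kd j.val = false →
    ∀ w : Fin 2 × Fin 3,
      d0 kd f (i - ((w.1 : ℕ) : ZMod 4)).val (j - ((w.2 : ℕ) : ZMod 9)).val = false := by
  decide +kernel

theorem d1_one : ∀ kd : Fin 17, ∀ f : Fin 2, ∀ i : ZMod 4, ∀ j : ZMod 9, x2 kd j.val = false →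
    ∃ w : Fin 2 × Fin 3, d1 kd f (i - ((w.1 : ℕ) : ZMod 4)).val (j - ((w.2 : ℕ) : ZMod 9)).val = true ∧
      ∀ w' : Fin 2 × Fin 3,
        d1 kd f (i - ((w'.1 : ℕ) : ZMod 4)).val (j - ((w'.2 : ℕ) : ZMod 9)).val = true → w' = w := by
  decide +kernel

theorem d1_none : ∀ kd : Fin 17, ∀ f : Fin 2, ∀ i : ZMod 4, ∀ j : ZMod 9, x2 kd j.val = true →
    ∀ w : Fin 2 × Fin 3,
      d1 kd f (i - ((w.1 : ℕ) : ZMod 4)).val (j - ((w.2 : ℕ) : ZMod 9)).val = false := by
  decide +kernel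

/-- the cell of a point of `P` -/
def cP (p : PP) : Fin 2 × Fin 3 := (Fin.ofNat 2 p.1.val, Fin.ofNat 3 p.2.val)
/-- the layer of a point of `Q` -/
def cQ (q : QQ) : Fin 5 × Fin 7 := (Fin.ofNat 5 q.1.val, Fin.ofNat 7 q.2.val)

theorem cardS0 : ∀ kd : Fin 17, ∀ h : ZMod 9, ∀ c : Fin 2 × Fin 3,
    (univ.filter (fun p : PP => cP p = c ∧
      d0 kd ((h - p.2).val / 3) p.1.val p.2.val = true)).card = n0 kd c.1 c.2 := by
  decide +kernel

theorem cardS1 : ∀ kd : Fin 17, ∀ h : ZMod 4, ∀ c : Fin 2 × Fin 3,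
    (univ.filter (fun p : PP => cP p = c ∧
      d1 kd ((h - p.1).val / 2) p.1.val p.2.val = true)).card = n1 kd c.1 c.2 := by
  decide +kernel

theorem cardI0 : ∀ c : Fin 2 × Fin 3, ∀ e : Fin 5 × Fin 7,
    (univ.filter (fun x : Fin 7 × Fin 5 => b0 c.1 c.2 x.1 x.2 e.1 e.2 = true)).card =
      n0 (tb e.1 e.2) c.1 c.2 := by
  decide +kernel

theorem cardI1 : ∀ c : Fin 2 × Fin 3, ∀ e : Fin 5 × Fin 7,
    (univ.filter (fun x : Fin 5 × Fin 7 => b1 c.1 c.2 x.1 x.2 e.1 e.2 = true)).card =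
      n1 (tb e.1 e.2) c.1 c.2 := by
  decide +kernel

theorem kb0_lt : ∀ a : Fin 2, ∀ f : Fin 7, kb0 a f < 5 := by decide +kernel
theorem lb0_lt : ∀ a : Fin 2, ∀ b : Fin 3, ∀ f : Fin 7, ∀ s : Fin 5, lb0 a b (5 * f + s) < 7 := by
  decide +kernel
theorem lb1_lt : ∀ f : Fin 5, lb1 f < 7 := by decide +kernel
theorem kb1_lt : ∀ a : Fin 2, ∀ f : Fin 5, ∀ s : Fin 7, kb1 a (7 * f + s) < 5 := by
  decide +kernel

end Vale.Agent.P043.T2.H664
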